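import Mathlib.Data.Nat.Choose.Lucas
import Mathlib.RingTheory.Ideal.Quotient.Basic
import Mathlib.Algebra.CharP.Basic
import Mathlib.Algebra.Ring.CompTypeclasses
import Mathlib.RingTheory.Coprime.Lemmas
import Mathlib.Tactic.Ring
import Mathlib.Tactic.LinearCombination

/-!
# P217: symmetric additive cocycles in one degree, killed by `p`

A symmetric cocycle of degree `d` killed by `p` vanishes as soon as its coefficient at the pivot
exponent vanishes.
-/

namespace Vale.Agent.P217.Deform

open Nat

variable {p : ℕ} [hp : Fact p.Prime]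

/-- A binomial coefficient at a prime power is the digit. -/
theorem choose_pow_modEq : ∀ (w a : ℕ), a.choose (p ^ w) ≡ a / p ^ w [MOD p] := by
  intro w
  induction w with
  | zero => intro a; simp [Nat.ModEq]
  | succ w ih =>
    intro a
    have h := Choose.choose_modEq_choose_mod_mul_choose_div_nat (p := p) (n := a) (k := p ^ (w + 1))
    rw [show p ^ (w + 1) % p = 0 from Nat.mod_eq_zero_of_dvd (dvd_pow_self p w.succ_ne_zero),
      Nat.choose_zero_right, one_mul, pow_succ, Nat.mul_div_cancel _ hp.out.pos] at h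
    rw [pow_succ]
    refine h.trans ((ih (a / p)).trans ?_)
    rw [Nat.div_div_eq_div_mul, mul_comm p]

theorem not_dvd_choose_pow {w a : ℕ} (h : ¬p ∣ a / p ^ w) : ¬p ∣ a.choose (p ^ w) := by
  rwa [(choose_pow_modEq w a).dvd_iff dvd_rfl]

/-- The pivot exponent in degree `d`. -/
def IsPivot (p d P : ℕ) : Prop :=
  (∃ v, d = p ^ (v + 1) ∧ P = p ^ v) ∨ (∃ v q, d = p ^ v * q ∧ 1 < q ∧ ¬p ∣ q ∧ P = p ^ v)

theorem exists_pivot {d : ℕ} (hd : 2 ≤ d) :
    (∃ v, d = p ^ (v + 1)) ∨ (∃ v q, d = p ^ v * q ∧ 1 < q ∧ ¬p ∣ q) := by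
  obtain ⟨v, q, hq, rfl⟩ := Nat.exists_eq_pow_mul_and_not_dvd (by omega : d ≠ 0) p hp.out.ne_one
  rcases Nat.lt_or_ge 1 q with h | h
  · exact .inr ⟨v, q, rfl, h, hq⟩
  · have hq1 : q = 1 := by
      rcases Nat.eq_zero_or_pos q with rfl | hq0
      · simp at hq
      · omega
    subst hq1
    rcases v with _ | v
    · simp at hd
    · exact .inl ⟨v, mul_one _⟩

variable {A : Type*} [CommRing A]

theorem eq_zero_of_natCast_mul {n : ℕ} (hn : ¬p ∣ n) {x : A} (hpx : (p : A) * x = 0)
    (h : (n : A) * x = 0) : x = 0 := by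
  obtain ⟨a, b, hab⟩ := Nat.isCoprime_iff_coprime.2 ((hp.out.coprime_iff_not_dvd).2 hn)
  have := congrArg (fun z : ℤ => (z : A) * x) hab
  push_cast at this
  linear_combination (a : A) * hpx + (b : A) * h - this

/-- A symmetric cocycle killed by `p` is zero if it is zero at the pivot. -/
theorem cocycle_eq_zero {d P : ℕ} (hP : IsPivot p d P) {c : ℕ → A}
    (hpc : ∀ a, (p : A) * c a = 0) (hsym : ∀ a b, 0 < a → 0 < b → a + b = d → c a = c b)
    (hrel : ∀ i j k, 0 < i → 0 < j → 0 < k → i + j + k = d →
      ((i + j).choose i : A) * c (i + j) = ((j + k).choose j : A) * c i)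
    (h0 : c P = 0) {a : ℕ} (ha : 0 < a) (had : a < d) : c a = 0 := by
  have hkey : ∀ a b, 0 < a → 0 < b → a + b < d →
      ((d - a).choose b : A) * c a = ((d - b).choose a : A) * c b := by
    intro a b ha hb hab
    have h1 := hrel a b (d - a - b) ha hb (by omega) (by omega)
    have h2 := hrel b a (d - a - b) hb ha (by omega) (by omega)
    rw [add_comm b a] at h2
    rw [Nat.choose_symm_add] at h1
    rw [show b + (d - a - b) = d - a by omega] at h1
    rw [show a + (d - a - b) = d - b by omega] at h2
    rw [← h1, ← h2]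
  have hkill : ∀ a w, 0 < a → a + p ^ w ≤ d → c (p ^ w) = 0 → ¬p ∣ (d - a) / p ^ w → c a = 0 := by
    intro a w ha hw hz hnd
    rcases hw.lt_or_eq with h | h
    · exact eq_zero_of_natCast_mul (not_dvd_choose_pow hnd) (hpc a)
        (by rw [hkey a _ ha (pow_pos hp.out.pos w) h, hz, mul_zero])
    · rw [hsym a _ ha (pow_pos hp.out.pos w) h, hz]
  have hpow : ∀ m, p ^ m < d → c (p ^ m) = 0 := by
    rcases hP with ⟨v, rfl, rfl⟩ | ⟨v, q, rfl, hq1, hq, rfl⟩
    · intro m hm
      have hmv : m < v + 1 := (Nat.pow_lt_pow_iff_right hp.out.one_lt).1 hm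
      rcases Nat.lt_or_ge m v with h | h
      · have hlt : p ^ m < p ^ v := (Nat.pow_lt_pow_iff_right hp.out.one_lt).2 h
        have hdiv : (p ^ (v + 1) - p ^ m) / p ^ v = p - 1 := by
          refine Nat.div_eq_of_lt_le ?_ ?_
          · rw [Nat.sub_mul, one_mul, pow_succ, mul_comm p (p ^ v)]
            omega
          · rw [Nat.sub_add_cancel hp.out.one_le, pow_succ, mul_comm p (p ^ v)]
            have := pow_pos hp.out.pos m
            have := Nat.mul_pos (pow_pos hp.out.pos v) hp.out.pos
            omega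
        refine hkill _ v (pow_pos hp.out.pos m) ?_ h0 ?_
        · have : p ^ v * 2 ≤ p ^ v * p := Nat.mul_le_mul_left _ hp.out.two_le
          rw [pow_succ]
          omega
        · rw [hdiv]
          exact Nat.not_dvd_of_pos_of_lt (by have := hp.out.two_le; omega)
            (by have := hp.out.pos; omega)
      · rwa [show m = v by omega]
    · have hq0 : 0 < q := by omega
      have hhi : ∀ m, v < m → p ^ m < p ^ v * q → c (p ^ m) = 0 := by
        intro m hvm hm
        obtain ⟨e, rfl⟩ : ∃ e, m = v + e + 1 := ⟨m - v - 1, by omega⟩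
        have e1 : p ^ (v + e + 1) = p ^ v * p ^ (e + 1) := by rw [← pow_add]; ring_nf
        have hlt : p ^ (e + 1) < q := Nat.lt_of_mul_lt_mul_left (e1 ▸ hm)
        refine hkill _ v (pow_pos hp.out.pos _) ?_ h0 ?_
        · calc p ^ (v + e + 1) + p ^ v = p ^ v * (p ^ (e + 1) + 1) := by rw [e1]; ring
            _ ≤ p ^ v * q := Nat.mul_le_mul_left _ hlt
        · rw [e1, ← Nat.mul_sub, Nat.mul_div_cancel_left _ (pow_pos hp.out.pos v)]
          intro h
          have : p ∣ q - p ^ (e + 1) + p ^ (e + 1) := Nat.dvd_add h (dvd_pow_self p e.succ_ne_zero)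
          rw [Nat.sub_add_cancel hlt.le] at this
          exact hq this
      intro m hm
      rcases lt_trichotomy m v with h | rfl | h
      · have hlt : p ^ m < p ^ v := (Nat.pow_lt_pow_iff_right hp.out.one_lt).2 h
        have hm0 := pow_pos hp.out.pos m
        by_cases hq2 : p ∣ q - 1
        · obtain ⟨s, r, hr, hrs⟩ :=
            Nat.exists_eq_pow_mul_and_not_dvd (by omega : q - 1 ≠ 0) p hp.out.ne_one
          have hr0 : 0 < r := Nat.pos_of_ne_zero fun h => by simp [h] at hr
          obtain ⟨t, rfl⟩ : ∃ t, s = t + 1 := ⟨s - 1, by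
            rcases s with _ | s
            · simp [hrs] at hq2; exact absurd hq2 hr
            · rfl⟩
          have hle : p ^ v * p ^ (t + 1) + p ^ v ≤ p ^ v * q := by
            rw [show q = p ^ (t + 1) * r + 1 by omega, mul_add, mul_one]
            exact Nat.add_le_add_right (Nat.mul_le_mul_left _ (Nat.le_mul_of_pos_right _ hr0)) _
          rw [← pow_add] at hle
          refine hkill _ (v + (t + 1)) hm0 (by omega) (hhi _ (by omega) (by omega)) ?_
          have e : p ^ v * q = r * p ^ (v + (t + 1)) + p ^ v := by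
            rw [show q = p ^ (t + 1) * r + 1 by omega]; ring
          have : (p ^ v * q - p ^ m) / p ^ (v + (t + 1)) = r := by
            have : p ^ v * 1 ≤ p ^ v * p ^ (t + 1) :=
              Nat.mul_le_mul_left _ (Nat.one_le_pow _ _ hp.out.pos)
            rw [← pow_add] at this
            refine Nat.div_eq_of_lt_le ?_ ?_
            · omega
            · rw [add_mul, one_mul]; omega
          rwa [this]
        · refine hkill _ v hm0 ?_ h0 ?_
          · have := Nat.mul_le_mul_left (p ^ v) hq1
            omega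
          · have : (p ^ v * q - p ^ m) / p ^ v = q - 1 := by
              refine Nat.div_eq_of_lt_le ?_ ?_
              · rw [Nat.sub_mul, one_mul, mul_comm q]
                have := Nat.mul_le_mul_left (p ^ v) hq0
                omega
              · rw [Nat.sub_add_cancel (by omega : 1 ≤ q), mul_comm q]
                have := Nat.mul_pos (pow_pos hp.out.pos v) hq0
                omega
            rwa [this]
      · exact h0
      · exact hhi m h hm
  induction a using Nat.strong_induction_on with
  | _ a ih =>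
    obtain ⟨v, q, hq, rfl⟩ := Nat.exists_eq_pow_mul_and_not_dvd ha.ne' p hp.out.ne_one
    rcases Nat.lt_or_ge 1 q with h | h
    · have hlt : p ^ v < p ^ v * q := lt_mul_of_one_lt_right (pow_pos hp.out.pos v) h
      have hr := hrel (p ^ v) (p ^ v * q - p ^ v) (d - p ^ v * q) (pow_pos hp.out.pos v) (by omega)
        (by omega) (by omega)
      rw [show p ^ v + (p ^ v * q - p ^ v) = p ^ v * q by omega,
        ih _ hlt (pow_pos hp.out.pos v) (hlt.trans had), mul_zero] at hr
      refine eq_zero_of_natCast_mul (not_dvd_choose_pow ?_) (hpc _) hr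
      rwa [Nat.mul_div_cancel_left _ (pow_pos hp.out.pos v)]
    · have hq1 : q = 1 := by
        rcases Nat.eq_zero_or_pos q with rfl | hq0
        · simp at hq
        · omega
      subst hq1
      rw [mul_one] at had ⊢
      exact hpow v had

end Vale.Agent.P217.Deform
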