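import Vale.Agent.P217.Statement

/-!
# P217: the answer to Q1 for the universal deformation
-/

noncomputable section

namespace Vale.Agent.P217

/-- `F` is the universal deformation of its special fibre over `W(k)`-algebras with residue field
`k` and nilpotent maximal ideal: every commutative law `G` with that special fibre is `⋆`-isomorphic
to the push forward of `F` along exactly one map that is compatible with the residue maps. -/
def IsUniversal (p : ℕ) [Fact p.Prime] (n : ℕ) (k : Type) [Field k] [CharP k p]
    (F : FormalGroup (LT p n k)) : Prop :=
  ∀ (A : Type) [CommRing A] (j : WittVector p k →+* A) (π : A →+* k) (S : ℕ),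
    π.comp j = WittVector.constantCoeff → RingHom.ker π ^ S = ⊥ →
    ∀ G : FormalGroup A, G.IsComm → G.map π = F.map (res p n k) →
      ∃! γ : LT p n k →+* A, γ.comp MvPowerSeries.C = j ∧ π.comp γ = res p n k ∧
        ∃ φ : PowerSeries A, IsHom G (F.map γ) φ ∧ PowerSeries.map π φ = PowerSeries.X

/-- Chai's question Q1 for the universal deformation of the height `n` Honda formal group. -/
def UniversalAnswer : Prop :=
  ∀ (p : ℕ) [Fact p.Prime] (n : ℕ), 1 ≤ n →
    ∀ (k : Type) [Field k] [CharP k p] [Fintype k], Fintype.card k = p ^ n →
      ∃ F : FormalGroup (LT p n k), IsUniversal p n k F ∧ AnswerFor p n k F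

end Vale.Agent.P217

end
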