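import Vale.Agent.P217.Deform.Step
import Vale.Agent.P217.Deform.Spec
import Vale.Agent.P217.Action.Complete

/-!
# P217: `univLaw` is the universal deformation
-/

noncomputable section

namespace Vale.Agent.P217.Deform

open MvPowerSeries Finset AU

variable {p : ℕ} [hp : Fact p.Prime] {n : ℕ} {k : Type} [Field k] [CharP k p]

/-- The defect depends on finitely many coefficients in each degree. -/
theorem defect_congr {A : Type} [CommRing A] (F G : FormalGroup A) {φ φ' : PowerSeries A}
    (hφ : PowerSeries.constantCoeff φ = 0) (hφ' : PowerSeries.constantCoeff φ' = 0) {D : ℕ}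
    (h : ∀ i ≤ D, PowerSeries.coeff i φ = PowerSeries.coeff i φ') :
    defect F G φ - defect F G φ' ∈ lowI A (Fin 2) D := by
  have hd : (φ - φ' : MvPowerSeries Unit A) ∈ lowI A Unit D := fun f hf => by
    have e : f = Finsupp.single () (f ()) := Finsupp.ext fun x => by simp
    rw [e, Finsupp.degree_single] at hf
    rw [e, map_sub, sub_eq_zero]
    exact h _ hf
  have hsub : ∀ {a : MvPowerSeries (Fin 2) A}, constantCoeff a = 0 →
      φ.subst a - φ'.subst a ∈ lowI A (Fin 2) D := fun {a} ha => by
    have hs := PowerSeries.HasSubst.of_constantCoeff_zero ha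
    have := subst_mem_lowI hd hs.const fun _ => ha
    rw [← coe_substAlgHom hs.const, map_sub, coe_substAlgHom hs.const] at this
    exact this
  have hpair := subst_sub_mem_lowI F.toPowerSeries
    (hasSubst_pair (ps_constantCoeff hφ (constantCoeff_X (0 : Fin 2)))
      (ps_constantCoeff hφ (constantCoeff_X (1 : Fin 2))))
    (hasSubst_pair (ps_constantCoeff hφ' (constantCoeff_X (0 : Fin 2)))
      (ps_constantCoeff hφ' (constantCoeff_X (1 : Fin 2))))
    (D := D) (fun s => by fin_cases s <;> exact hsub (constantCoeff_X _))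
  rw [defect, defect, sub_sub_sub_comm]
  exact (lowI A (Fin 2) D).sub_mem (hsub G.zero_constantCoeff) hpair

/-- Every series is a homomorphism in degree one. -/
theorem defect_low {A : Type} [CommRing A] (F G : FormalGroup A) {φ : PowerSeries A}
    (hφ : PowerSeries.constantCoeff φ = 0) {g : Fin 2 →₀ ℕ} (hg : g.degree < 2) :
    coeff g (defect F G φ) = 0 := by
  have hlin : ∀ F : FormalGroup A, F.toPowerSeries - (x0 + x1) ∈ lowI A (Fin 2) 1 := fun F f hf => by
    rw [map_sub, coeff_formalGroup_low F f (by omega), sub_self]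
  have cx : ∀ i : Fin 2, constantCoeff (φ.subst (X i : MvPowerSeries (Fin 2) A)) = 0 := fun i =>
    ps_constantCoeff hφ (constantCoeff_X _)
  have hs := hasSubst_pair (cx 0) (cx 1)
  have e1 := psubst_sub_mem_lowI φ G.zero_constantCoeff
    (show constantCoeff (x0 + x1 : MvPowerSeries (Fin 2) A) = 0 by simp) (hlin G) g (by omega)
  have e2 := subst_mem_lowI (hlin F) hs (fun s => by fin_cases s; exacts [cx 0, cx 1]) g (by omega)
  rw [← coe_substAlgHom hs, map_sub, map_add (substAlgHom hs), substAlgHom_X hs, substAlgHom_X hs,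
    coe_substAlgHom hs, map_sub] at e2
  rw [map_sub] at e1
  simp only [Matrix.cons_val_zero, Matrix.cons_val_one, map_add] at e2
  rw [coeff_subst_sum φ (a := x0 + x1) (by simp) (D := 1) (by omega)] at e1
  rw [coeff_subst_sum φ (constantCoeff_X _) (D := 1) (by omega),
    coeff_subst_sum φ (constantCoeff_X _) (D := 1) (by omega)] at e2
  simp only [Finset.sum_range_succ, Finset.sum_range_zero, PowerSeries.coeff_zero_eq_constantCoeff_apply,
    hφ, zero_mul, zero_add, pow_one, map_add] at e1 e2
  rw [defect, map_sub]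
  change _ - coeff g (MvPowerSeries.subst _ F.toPowerSeries) = 0
  linear_combination e1 - e2

theorem exists_deform {A : Type} [CommRing A] {π : A →+* k} (hn : 1 ≤ n)
    (hsurj : Function.Surjective π) {E : Ideal A} (hE : E ≤ RingHom.ker π)
    (hz : ∀ x ∈ E, ∀ y ∈ RingHom.ker π, x * y = 0) {G : FormalGroup A} (hG : G.IsComm)
    (hGπ : G.map π = honda p n k) {φ : PowerSeries A} {u : Fin (n - 1) → A}
    (hg : Good (p := p) π E G φ u) :
    ∃ φ' u', Good (p := p) π E G φ' u' ∧ defect (Flaw p n u') G φ' = 0 := by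
  classical
  let St := PowerSeries A × (Fin (n - 1) → A)
  let P : ℕ → St → Prop := fun d s => Good (p := p) π E G s.1 s.2 ∧
    ∀ g, g.degree < d → coeff g (defect (Flaw p n s.2) G s.1) = 0
  have hstep : ∀ N (s : St), ∃ s' : St, P (N + 2) s → P (N + 3) s' ∧
      (∀ i, i * p ^ n < N + 2 → PowerSeries.coeff i s'.1 = PowerSeries.coeff i s.1) ∧
      (p ^ n < N + 2 → s'.2 = s.2) := by
    intro N s
    by_cases h : P (N + 2) s
    · obtain ⟨φ', u', h1, h2, h3, h4⟩ := step hn hsurj hE hz hG hGπ h.1 (by omega : 2 ≤ N + 2) h.2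
      exact ⟨(φ', u'), fun _ => ⟨⟨h1, fun g hg => h2 g (by omega)⟩, h3, h4⟩⟩
    · exact ⟨s, fun h' => absurd h' h⟩
  choose f hf using hstep
  let s : ℕ → St := fun N => Nat.rec (φ, u) (fun N s => f N s) N
  have hs : ∀ N, P (N + 2) (s N) := by
    intro N
    induction N with
    | zero => exact ⟨hg, fun g hg' => defect_low _ G hg.const hg'⟩
    | succ N ih => exact (hf N (s N) ih).1
  have stabφ : ∀ i N M, i * p ^ n ≤ N → N ≤ M →
      PowerSeries.coeff i (s M).1 = PowerSeries.coeff i (s N).1 := by
    intro i N M hN hM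
    induction M, hM using Nat.le_induction with
    | base => rfl
    | succ M hM ih => exact ((hf M (s M) (hs M)).2.1 i (by omega)).trans ih
  have stabu : ∀ M, p ^ n ≤ M → (s M).2 = (s (p ^ n)).2 := by
    intro M hM
    induction M, hM using Nat.le_induction with
    | base => rfl
    | succ M hM ih => exact ((hf M (s M) (hs M)).2.2 (by omega)).trans ih
  set ψ : PowerSeries A := PowerSeries.mk fun i => PowerSeries.coeff i (s (i * p ^ n)).1 with hψ
  have hψ0 : PowerSeries.constantCoeff ψ = 0 := by
    rw [← PowerSeries.coeff_zero_eq_constantCoeff_apply, hψ, PowerSeries.coeff_mk,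
      PowerSeries.coeff_zero_eq_constantCoeff_apply, (hs _).1.const]
  set w := (s (p ^ n)).2 with hw
  have hzero : defect (Flaw p n w) G ψ = 0 := by
    ext g
    set M := g.degree + g.degree * p ^ n + p ^ n
    have h1 := defect_congr (Flaw p n w) G hψ0 (hs M).1.const (D := g.degree) (fun i hi => by
      rw [hψ, PowerSeries.coeff_mk, stabφ i (i * p ^ n) M le_rfl]
      have := Nat.mul_le_mul_right (p ^ n) hi
      omega) g le_rfl
    have h2 := (hs M).2 g (by omega)
    rw [stabu M (by omega)] at h2
    rw [map_sub, h2, sub_zero] at h1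
    rw [h1, map_zero]
  refine ⟨ψ, w, ⟨hψ0, PowerSeries.ext fun i => ?_, (hs _).1.small, fun g => ?_⟩, hzero⟩
  · rw [PowerSeries.coeff_map, hψ, PowerSeries.coeff_mk, ← PowerSeries.coeff_map, (hs _).1.res]
  · rw [hzero, map_zero]
    exact E.zero_mem

/-- Every deformation is `⋆`-isomorphic to one of the standard laws. -/
theorem exists_iso (hn : 1 ≤ n) : ∀ (S : ℕ) {A : Type} [CommRing A] (π : A →+* k),
    Function.Surjective π → RingHom.ker π ^ (S + 1) = ⊥ → ∀ G : FormalGroup A, G.IsComm →
      G.map π = honda p n k → ∃ (φ : PowerSeries A) (u : Fin (n - 1) → A),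
        IsHom G (Flaw p n u) φ ∧ PowerSeries.map π φ = PowerSeries.X ∧ ∀ i, π (u i) = 0 := by
  intro S
  induction S with
  | zero =>
    intro A _ π _ hS G _ hGπ
    rw [zero_add, pow_one] at hS
    have hinj : Function.Injective π := (RingHom.injective_iff_ker_eq_bot π).2 hS
    have hG : G = Flaw p n fun _ => 0 := FormalGroup.ext (MvPowerSeries.ext fun d => hinj (by
      rw [← coeff_map, ← coeff_map, ← FormalGroup.map_toPowerSeries, ← FormalGroup.map_toPowerSeries,
        hGπ, Flaw_map_zero π fun _ => map_zero π]))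
    exact ⟨PowerSeries.X, fun _ => 0, hG ▸ isHom_X _, PowerSeries.map_X π, fun _ => map_zero π⟩
  | succ S ih =>
    intro A _ π hsurj hS G hG hGπ
    set M := RingHom.ker π
    set E := M ^ (S + 1)
    have hE : E ≤ M := Ideal.pow_le_self (by omega)
    have hz : ∀ x ∈ E, ∀ y ∈ M, x * y = 0 := fun x hx y hy => by
      rw [← Ideal.mem_bot, ← hS, pow_succ]
      exact Ideal.mul_mem_mul hx hy
    set q := Ideal.Quotient.mk E
    set π' : A ⧸ E →+* k := Ideal.Quotient.lift E π fun a ha => hE ha with hπ'
    have hπ'q : π'.comp q = π := RingHom.ext fun a => rfl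
    have hq : Function.Surjective q := Ideal.Quotient.mk_surjective
    have hker : RingHom.ker π' = M.map q := by
      refine le_antisymm (fun x hx => ?_) (Ideal.map_le_iff_le_comap.2 fun a ha => ha)
      obtain ⟨a, rfl⟩ := hq x
      exact Ideal.mem_map_of_mem q (show a ∈ M from hx)
    have hGq : (G.map q).IsComm := ⟨by
      conv_lhs => rw [FormalGroup.map_toPowerSeries]
      rw [congrArg (MvPowerSeries.map q) hG.comm, map_subst (hasSubst_pair (constantCoeff_X _)
        (constantCoeff_X _))]
      congr 1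
      funext i
      fin_cases i <;> exact MvPowerSeries.map_X _ _⟩
    obtain ⟨φ₀, u₀, hφ₀, hres₀, hu₀⟩ := ih π' (fun c => (hsurj c).imp' q fun a ha => ha)
      (by rw [hker, ← Ideal.map_pow]; exact Ideal.map_quotient_self E) (G.map q) hGq
      (by rw [formalGroup_map_map, hπ'q, hGπ])
    choose c hc using fun i => hq (PowerSeries.coeff i φ₀)
    choose u hu using fun i => hq (u₀ i)
    set φ : PowerSeries A := PowerSeries.mk fun i => if i = 0 then 0 else c i with hφ
    have hφ0 : PowerSeries.constantCoeff φ = 0 := by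
      rw [← PowerSeries.coeff_zero_eq_constantCoeff_apply, hφ, PowerSeries.coeff_mk, if_pos rfl]
    have hφq : PowerSeries.map q φ = φ₀ := PowerSeries.ext fun i => by
      rw [PowerSeries.coeff_map, hφ, PowerSeries.coeff_mk]
      split_ifs with hi
      · rw [hi, map_zero, PowerSeries.coeff_zero_eq_constantCoeff_apply, hφ₀.1]
      · exact hc i
    have hgood : Good (p := p) π E G φ u := by
      refine ⟨hφ0, ?_, fun i => ?_, fun g => ?_⟩
      · rw [← hres₀, ← hφq]
        rfl
      · rw [← hu₀ i, ← hu i]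
        rfl
      · rw [← Ideal.Quotient.eq_zero_iff_mem, ← coeff_map, map_defect _ _ _ hφ0, hφq, Flaw_map,
          show (fun i => q (u i)) = u₀ from funext hu, defect, hφ₀.2, sub_self, map_zero]
    obtain ⟨φ', u', hg', hd⟩ := exists_deform hn hsurj hE hz hG hGπ hgood
    exact ⟨φ', u', ⟨hg'.const, sub_eq_zero.1 hd⟩, hg'.res, hg'.small⟩

/-- Two maps out of the Lubin-Tate ring that agree on constants and variables agree. -/
theorem hom_ext {A : Type} [CommRing A] [PerfectRing k p] {γ γ' : LT p n k →+* A} {M : Ideal A}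
    {S : ℕ} (hS : M ^ S = ⊥) (hC : γ.comp MvPowerSeries.C = γ'.comp MvPowerSeries.C)
    (hX : ∀ i, γ (MvPowerSeries.X i) = γ' (MvPowerSeries.X i))
    (hm : ∀ i, γ (MvPowerSeries.X i) ∈ M) : γ = γ' := by
  have key : ∀ T f, γ f - γ' f ∈ M ^ T := by
    intro T
    induction T with
    | zero => intro f; rw [pow_zero, Ideal.one_eq_top]; exact Submodule.mem_top
    | succ T ih =>
      intro f
      obtain ⟨r, hr⟩ := exists_eq_C_add_sum f
      have h := RingHom.congr_fun hC (constantCoeff f)
      simp only [RingHom.comp_apply] at h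
      rw [hr, map_add, map_add, h, add_sub_add_left_eq_sub, map_sum, map_sum,
        ← Finset.sum_sub_distrib]
      refine Ideal.sum_mem _ fun i _ => ?_
      rw [map_mul, map_mul, ← hX, ← sub_mul, pow_succ]
      exact Ideal.mul_mem_mul (ih _) (hm i)
  refine RingHom.ext fun f => sub_eq_zero.1 ?_
  have := key S f
  rwa [hS, Ideal.mem_bot] at this

/-- The standard law is universal. -/
theorem univLaw_universal [PerfectRing k p] (hn : 1 ≤ n) : IsUniversal p n k (univLaw p n k) := by
  intro A _ j π S hπj hS G hG hGπ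
  rw [univLaw_res] at hGπ
  have hsurj : Function.Surjective π := fun c =>
    ⟨j (WittVector.teichmuller p c), by rw [← RingHom.comp_apply, hπj]; simp⟩
  have hS' : RingHom.ker π ^ (S + 1) = ⊥ := by rw [pow_succ, hS, Ideal.bot_mul]
  obtain ⟨φ, u, hφ, hres, hu⟩ := exists_iso hn S π hsurj hS' G hG hGπ
  set c : Fin (n - 1) → MvPowerSeries (Fin 0) A := fun i => MvPowerSeries.C (u i)
  have hc : HasSubst c := hasSubst_of_constantCoeff_nilpotent fun i => ⟨S, by
    rw [constantCoeff_C, ← Ideal.mem_bot, ← hS]
    exact Ideal.pow_mem_pow (RingHom.mem_ker.2 (hu i)) S⟩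
  set γ : LT p n k →+* A := (MvPowerSeries.constantCoeff).comp
    ((substAlgHom hc).toRingHom.comp (MvPowerSeries.map j))
  have hγC : γ.comp MvPowerSeries.C = j := RingHom.ext fun a => by simp [γ]
  have hγX : ∀ i, γ (MvPowerSeries.X i) = u i := fun i => by
    simp [γ, subst_X hc, c]
  have hπγ : π.comp γ = res p n k := by
    refine hom_ext (M := (⊥ : Ideal k)) (S := 1) (pow_one _) ?_ (fun i => ?_) fun i => ?_
    · rw [RingHom.comp_assoc, hγC, hπj]
      exact RingHom.ext fun a => by simp [res]
    · rw [RingHom.comp_apply, hγX, hu, res_X]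
    · rw [RingHom.comp_apply, hγX, hu]; exact Submodule.zero_mem _
  refine ⟨γ, ⟨hγC, hπγ, φ, ?_, hres⟩, ?_⟩
  · rw [univLaw_map, show (fun i => γ (MvPowerSeries.X i)) = u from funext hγX]
    exact hφ
  rintro γ' ⟨hC', hπ', φ', hφ', hres'⟩
  have hu' : ∀ i, γ' (MvPowerSeries.X i) ∈ RingHom.ker π := fun i => by
    rw [RingHom.mem_ker, ← RingHom.comp_apply, hπ']; exact res_X p n k i
  rw [univLaw_map] at hφ'
  have hpM : (p : A) ∈ RingHom.ker π := by simp [RingHom.mem_ker]
  have h1 : IsUnit (PowerSeries.coeff 1 φ) := by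
    have hk : PowerSeries.coeff 1 φ - 1 ∈ RingHom.ker π := by
      rw [RingHom.mem_ker, map_sub, ← PowerSeries.coeff_map, hres, map_one,
        PowerSeries.coeff_one_X, sub_self]
    have hnil : IsNilpotent (PowerSeries.coeff 1 φ - 1) := ⟨S, by
      rw [← Ideal.mem_bot, ← hS]; exact Ideal.pow_mem_pow hk S⟩
    simpa using hnil.isUnit_add_one
  have heq := pair_eq lawTarget lowDegreeTarget hn hpM hS (fun i => RingHom.mem_ker.2 (hu i)) hu'
    hφ hφ' h1 (fun d => by
      rw [RingHom.mem_ker, map_sub, map_sub, sub_eq_zero, ← coeff_map, ← coeff_map]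
      exact congrArg (MvPowerSeries.coeff d) (hres'.trans hres.symm))
  exact hom_ext hS (by rw [hC', hγC]) (fun i => by rw [hγX]; exact (congrFun heq i).symm) hu'

end Vale.Agent.P217.Deform
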