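import Vale.Agent.P217.ActionUnique.Rigid
import Vale.Agent.P217.Action.Basic
import Vale.Agent.P217.Deform.Cocycle

/-!
# P217: the defect of a series from being a homomorphism

`defect F G φ = φ(G(x,y)) - F(φ x, φ y)`. In its lowest degree it is a symmetric cocycle.
-/

noncomputable section

namespace Vale.Agent.P217.Deform

open MvPowerSeries Finset AU

variable {A : Type} [CommRing A] {σ : Type}

/-- The defect of `φ` from being a homomorphism `G → F`. -/
def defect (F G : FormalGroup A) (φ : PowerSeries A) : MvPowerSeries (Fin 2) A :=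
  φ.subst G.toPowerSeries -
    fadd F (φ.subst (x0 : MvPowerSeries (Fin 2) A)) (φ.subst (x1 : MvPowerSeries (Fin 2) A))

theorem subst_fadd_defect (F G : FormalGroup A) {φ : PowerSeries A}
    (hφ : PowerSeries.constantCoeff φ = 0) {a b : MvPowerSeries σ A} (ha : constantCoeff a = 0)
    (hb : constantCoeff b = 0) :
    φ.subst (fadd G a b) = fadd F (φ.subst a) (φ.subst b) + (defect F G φ).subst ![a, b] := by
  have hs := hasSubst_pair ha hb
  have hc : ∀ i : Fin 2, (φ.subst (MvPowerSeries.X i : MvPowerSeries (Fin 2) A)).subst ![a, b] =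
      φ.subst (![a, b] i) := fun i => by
    rw [PowerSeries.subst, PowerSeries.subst,
      subst_comp_subst_apply (PowerSeries.HasSubst.of_constantCoeff_zero (constantCoeff_X _)).const hs]
    congr 1
    funext _
    exact subst_X hs i
  have e : φ.subst (fadd G a b) = (φ.subst G.toPowerSeries).subst ![a, b] := by
    rw [PowerSeries.subst, PowerSeries.subst,
      subst_comp_subst_apply (PowerSeries.HasSubst.of_constantCoeff_zero G.zero_constantCoeff).const hs]
    rfl
  have h : φ.subst G.toPowerSeries =
      fadd F (φ.subst (x0 : MvPowerSeries (Fin 2) A)) (φ.subst (x1 : MvPowerSeries (Fin 2) A)) +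
        defect F G φ := by rw [defect, add_sub_cancel]
  rw [e, h, subst_add hs, psSubst_fadd F (ps_constantCoeff hφ (constantCoeff_X _))
    (ps_constantCoeff hφ (constantCoeff_X _)) hs, hc, hc]
  rfl

theorem map_defect {B : Type} [CommRing B] (g : A →+* B) (F G : FormalGroup A) {φ : PowerSeries A}
    (hφ : PowerSeries.constantCoeff φ = 0) :
    MvPowerSeries.map g (defect F G φ) = defect (F.map g) (G.map g) (PowerSeries.map g φ) := by
  rw [defect, defect, map_sub, map_subst_one g φ G.zero_constantCoeff,
    map_fadd g F (ps_constantCoeff hφ (constantCoeff_X _)) (ps_constantCoeff hφ (constantCoeff_X _)),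
    map_subst_one g φ (constantCoeff_X _), map_subst_one g φ (constantCoeff_X _), map_X, map_X]
  rfl

theorem swap_pair {a b : MvPowerSeries (Fin 2) A} (ha : constantCoeff a = 0)
    (hb : constantCoeff b = 0) (f : MvPowerSeries (Fin 2) A) :
    (f.subst ![a, b]).subst ![(x1 : MvPowerSeries (Fin 2) A), x0] =
      f.subst ![a.subst ![(x1 : MvPowerSeries (Fin 2) A), x0], b.subst ![x1, x0]] := by
  rw [subst_comp_subst_apply (hasSubst_pair ha hb)
    (hasSubst_pair (constantCoeff_X _) (constantCoeff_X _))]
  congr 1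
  funext i
  fin_cases i <;> rfl

/-- The defect between commutative laws is symmetric. -/
theorem defect_swap (F G : FormalGroup A) (hF : F.IsComm) (hG : G.IsComm) {φ : PowerSeries A}
    (hφ : PowerSeries.constantCoeff φ = 0) :
    (defect F G φ).subst ![(x1 : MvPowerSeries (Fin 2) A), x0] = defect F G φ := by
  have h := subst_fadd_defect F G hφ (a := (x1 : MvPowerSeries (Fin 2) A)) (b := x0)
    (constantCoeff_X _) (constantCoeff_X _)
  rw [fadd_comm G hG (constantCoeff_X _) (constantCoeff_X _),
    fadd_comm F hF (ps_constantCoeff hφ (constantCoeff_X _)) (ps_constantCoeff hφ (constantCoeff_X _))]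
    at h
  have e : fadd G (x0 : MvPowerSeries (Fin 2) A) x1 = G.toPowerSeries :=
    (congrArg (fun a => MvPowerSeries.subst a G.toPowerSeries)
      (funext fun i => by fin_cases i <;> rfl)).trans (congrFun subst_self _)
  rw [e] at h
  rw [eq_sub_of_add_eq' h.symm]
  rfl

theorem coeff_pair_pow {s t r : Fin 3} (hst : s ≠ t) (hsr : s ≠ r) (htr : t ≠ r) (a b : ℕ)
    (e : Fin 3 →₀ ℕ) :
    coeff e ((X s + X t : MvPowerSeries (Fin 3) A) ^ a * X r ^ b) =
      if e s + e t = a ∧ e r = b then (a.choose (e s) : A) else 0 := by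
  classical
  have hall : ∀ x : Fin 3, x = s ∨ x = t ∨ x = r := by
    revert s t r
    decide
  have hmon : ∀ i, (X s : MvPowerSeries (Fin 3) A) ^ i * X t ^ (a - i) *
      ((a.choose i : ℕ) : MvPowerSeries (Fin 3) A) * X r ^ b =
      monomial (Finsupp.single s i + Finsupp.single t (a - i) + Finsupp.single r b)
        (a.choose i : A) := fun i => by
    rw [X_pow_eq, X_pow_eq, X_pow_eq, monomial_mul_monomial, one_mul, ← map_natCast
      (C (σ := Fin 3) (R := A)), ← monomial_zero_eq_C_apply, monomial_mul_monomial,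
      monomial_mul_monomial, add_zero, one_mul, mul_one]
  rw [add_pow, Finset.sum_mul, map_sum,
    Finset.sum_congr rfl fun i _ => by rw [hmon, coeff_monomial]]
  by_cases h : e s + e t = a ∧ e r = b
  · rw [if_pos h, Finset.sum_eq_single (e s), if_pos]
    · refine Finsupp.ext fun x => ?_
      rcases hall x with rfl | rfl | rfl <;>
        simp [Finsupp.single_apply, hst, hsr, htr, hst.symm, hsr.symm, htr.symm] <;> omega
    · intro i _ hi
      refine if_neg fun q => hi ?_
      rw [q]
      simp [Finsupp.single_apply, hst, hsr, hst.symm, hsr.symm]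
    · intro hc
      simp at hc
      omega
  · rw [if_neg h]
    refine Finset.sum_eq_zero fun i hi => if_neg fun q => h ?_
    rw [Finset.mem_range] at hi
    rw [q]
    simp [Finsupp.single_apply, hst, hsr, htr, hst.symm, hsr.symm, htr.symm]
    omega

/-- Substituting a sum of two variables and a third into the first degree of `Δ` that occurs. -/
theorem coeff_subst_left {s t r : Fin 3} (hst : s ≠ t) (hsr : s ≠ r) (htr : t ≠ r)
    (Δ : MvPowerSeries (Fin 2) A) (e : Fin 3 →₀ ℕ) :
    coeff e (Δ.subst ![(X s + X t : MvPowerSeries (Fin 3) A), X r]) =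
      coeff (Finsupp.single 0 (e s + e t) + Finsupp.single 1 (e r)) Δ *
        ((e s + e t).choose (e s) : A) := by
  have hs : HasSubst ![(X s + X t : MvPowerSeries (Fin 3) A), X r] :=
    hasSubst_pair (by simp) (constantCoeff_X _)
  rw [coeff_subst hs, finsum_eq_single _ (Finsupp.single 0 (e s + e t) + Finsupp.single 1 (e r))]
  · simp [Finsupp.prod_fintype, Fin.prod_univ_two, coeff_pair_pow hst hsr htr]
  · intro g hg
    simp only [Finsupp.prod_fintype _ _ (fun i => pow_zero _), Fin.prod_univ_two,
      Matrix.cons_val_zero, Matrix.cons_val_one, smul_eq_mul]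
    rw [coeff_pair_pow hst hsr htr, if_neg, mul_zero]
    rintro ⟨h1, h2⟩
    exact hg (Finsupp.ext fun i => by fin_cases i <;> simp [h1, h2])

theorem coeff_subst_right {s t r : Fin 3} (hst : s ≠ t) (hsr : s ≠ r) (htr : t ≠ r)
    (Δ : MvPowerSeries (Fin 2) A) (e : Fin 3 →₀ ℕ) :
    coeff e (Δ.subst ![X r, (X s + X t : MvPowerSeries (Fin 3) A)]) =
      coeff (Finsupp.single 0 (e r) + Finsupp.single 1 (e s + e t)) Δ *
        ((e s + e t).choose (e s) : A) := by
  have hs : HasSubst ![X r, (X s + X t : MvPowerSeries (Fin 3) A)] :=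
    hasSubst_pair (constantCoeff_X _) (by simp)
  rw [coeff_subst hs, finsum_eq_single _ (Finsupp.single 0 (e r) + Finsupp.single 1 (e s + e t))]
  · simp [Finsupp.prod_fintype, Fin.prod_univ_two, mul_comm (X r ^ e r),
      coeff_pair_pow hst hsr htr]
  · intro g hg
    simp only [Finsupp.prod_fintype _ _ (fun i => pow_zero _), Fin.prod_univ_two,
      Matrix.cons_val_zero, Matrix.cons_val_one, smul_eq_mul]
    rw [mul_comm (X r ^ g 0), coeff_pair_pow hst hsr htr, if_neg, mul_zero]
    rintro ⟨h1, h2⟩
    exact hg (Finsupp.ext fun i => by fin_cases i <;> simp [h1, h2])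

/-- A substitution in a series that vanishes below degree `d` only sees linear parts in degree
`d`. -/
theorem coeff_subst_agree {τ : Type} {Δ : MvPowerSeries (Fin 2) A} {d : ℕ}
    (hΔ : ∀ g, g.degree < d → coeff g Δ = 0) {a a' b : MvPowerSeries τ A}
    (ha : constantCoeff a = 0) (ha' : constantCoeff a' = 0) (hb : constantCoeff b = 0)
    (h : ∀ e : τ →₀ ℕ, e.degree < 2 → coeff e a = coeff e a') {e : τ →₀ ℕ} (he : e.degree ≤ d) :
    coeff e (Δ.subst ![a, b]) = coeff e (Δ.subst ![a', b]) ∧
      coeff e (Δ.subst ![b, a]) = coeff e (Δ.subst ![b, a']) := by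
  have key : ∀ (i j : ℕ), d ≤ i + j → coeff e (a ^ i * b ^ j) = coeff e (a' ^ i * b ^ j) := by
    intro i j hij
    rw [← sub_eq_zero, ← map_sub, ← sub_mul]
    rcases i with _ | i
    · simp
    refine coeff_of_lt_order (lt_of_lt_of_le ?_ le_order_mul)
    refine lt_of_lt_of_le ?_ (add_le_add (le_order_pow_sub_pow ha ha' (D := 2) h i)
      (le_order_pow_of_constantCoeff_eq_zero j hb))
    rw [← Nat.cast_add]
    exact Nat.cast_lt.mpr (by omega)
  constructor <;>
    rw [coeff_subst (hasSubst_pair (by assumption) (by assumption)),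
      coeff_subst (hasSubst_pair (by assumption) (by assumption))] <;>
    refine finsum_congr fun g => ?_ <;>
    simp only [Finsupp.prod_fintype _ _ (fun i => pow_zero _), Fin.prod_univ_two,
      Matrix.cons_val_zero, Matrix.cons_val_one, smul_eq_mul] <;>
    rcases Nat.lt_or_ge g.degree d with hg | hg
  · rw [hΔ g hg, zero_mul, zero_mul]
  · rw [key _ _ (by rwa [degree_fin_two] at hg)]
  · rw [hΔ g hg, zero_mul, zero_mul]
  · rw [mul_comm (b ^ g 0), mul_comm (b ^ g 0), key _ _ (by rw [degree_fin_two] at hg; omega)]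

theorem coeff_subst_eq_zero_of_vanish {τ : Type} {Δ : MvPowerSeries (Fin 2) A} {d : ℕ}
    (hΔ : ∀ g, g.degree < d → coeff g Δ = 0) {a b : MvPowerSeries τ A}
    (ha : constantCoeff a = 0) (hb : constantCoeff b = 0) {e : τ →₀ ℕ} (he : e.degree < d) :
    coeff e (Δ.subst ![a, b]) = 0 := by
  refine subst_mem_lowI (D := d - 1) (fun g hg => hΔ g (by omega)) (hasSubst_pair ha hb)
    (fun s => by fin_cases s <;> simpa) e (by omega)

theorem coeff_subst_vars_zero {Δ : MvPowerSeries (Fin 2) A} {u v w : Fin 3} (hu : u ≠ w)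
    (hv : v ≠ w) {e : Fin 3 →₀ ℕ} (he : e w ≠ 0) :
    coeff e (Δ.subst ![(X u : MvPowerSeries (Fin 3) A), X v]) = 0 := by
  classical
  rw [coeff_subst (hasSubst_pair (constantCoeff_X _) (constantCoeff_X _))]
  refine finsum_eq_zero_of_forall_eq_zero fun g => ?_
  simp only [Finsupp.prod_fintype _ _ (fun i => pow_zero _), Fin.prod_univ_two,
    Matrix.cons_val_zero, Matrix.cons_val_one, smul_eq_mul, X_pow_eq, monomial_mul_monomial,
    mul_one, coeff_monomial]
  rw [if_neg, mul_zero]
  intro h
  apply he
  rw [h]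
  simp [Finsupp.single_apply, hu, hv]

/-- The exponent `(a, b)`. -/
def pairExp (a b : ℕ) : Fin 2 →₀ ℕ := Finsupp.single 0 a + Finsupp.single 1 b

theorem degree_pairExp (a b : ℕ) : (pairExp a b).degree = a + b := by
  simp [pairExp, Finsupp.degree_single]

theorem pairExp_self (g : Fin 2 →₀ ℕ) : pairExp (g 0) (g 1) = g :=
  Finsupp.ext fun i => by fin_cases i <;> simp [pairExp]

theorem defect_symm (F G : FormalGroup A) (hF : F.IsComm) (hG : G.IsComm) {φ : PowerSeries A}
    (hφ : PowerSeries.constantCoeff φ = 0) (a b : ℕ) :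
    coeff (pairExp a b) (defect F G φ) = coeff (pairExp b a) (defect F G φ) := by
  classical
  conv_lhs => rw [← defect_swap F G hF hG hφ]
  rw [coeff_subst (hasSubst_pair (constantCoeff_X _) (constantCoeff_X _)),
    finsum_eq_single _ (pairExp b a)]
  · simp [pairExp, Finsupp.prod_fintype, Fin.prod_univ_two, X_pow_eq, monomial_mul_monomial,
      coeff_monomial, add_comm]
  · intro g hg
    simp only [Finsupp.prod_fintype _ _ (fun i => pow_zero _), Fin.prod_univ_two,
      Matrix.cons_val_zero, Matrix.cons_val_one, smul_eq_mul, X_pow_eq, monomial_mul_monomial,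
      mul_one, coeff_monomial]
    rw [if_neg, mul_zero]
    intro h
    refine hg (Finsupp.ext fun i => ?_)
    have h0 := congrArg (fun q : Fin 2 →₀ ℕ => q 0) h
    have h1 := congrArg (fun q : Fin 2 →₀ ℕ => q 1) h
    simp [pairExp] at h0 h1
    fin_cases i <;> simp [pairExp, h0, h1]

/-- In its first degree the defect is a cocycle. -/
theorem defect_cocycle (F G : FormalGroup A) {φ : PowerSeries A}
    (hφ : PowerSeries.constantCoeff φ = 0) {d : ℕ}
    (hΔ : ∀ g, g.degree < d → coeff g (defect F G φ) = 0) {i j k : ℕ} (hi : 0 < i) (hk : 0 < k)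
    (hd : i + j + k = d) :
    ((i + j).choose i : A) * coeff (pairExp (i + j) k) (defect F G φ) =
      ((j + k).choose j : A) * coeff (pairExp i (j + k)) (defect F G φ) := by
  set Δ := defect F G φ with hΔdef
  set X0 : MvPowerSeries (Fin 3) A := X 0
  set X1 : MvPowerSeries (Fin 3) A := X 1
  set X2 : MvPowerSeries (Fin 3) A := X 2
  have c0 : constantCoeff X0 = 0 := constantCoeff_X _
  have c1 : constantCoeff X1 = 0 := constantCoeff_X _
  have c2 : constantCoeff X2 = 0 := constantCoeff_X _
  have p0 := ps_constantCoeff hφ c0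
  have p1 := ps_constantCoeff hφ c1
  have p2 := ps_constantCoeff hφ c2
  set e : Fin 3 →₀ ℕ := Finsupp.single 0 i + Finsupp.single 1 j + Finsupp.single 2 k with he
  have hed : e.degree = d := by simp [he, Finsupp.degree_single, ← hd]
  have he0 : e 0 = i := by simp [he]
  have he1 : e 1 = j := by simp [he]
  have he2 : e 2 = k := by simp [he]
  have h01 := subst_fadd_defect F G hφ c0 c1
  have h12 := subst_fadd_defect F G hφ c1 c2
  have hL := subst_fadd_defect F G hφ (constantCoeff_fadd G c0 c1) c2
  have hR := subst_fadd_defect F G hφ c0 (constantCoeff_fadd G c1 c2)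
  rw [← hΔdef] at h01 h12 hL hR
  rw [fadd_assoc G c0 c1 c2, hR] at hL
  have hE := congrArg (coeff e) hL
  rw [map_add, map_add] at hE
  have hz01 : coeff e (Δ.subst ![X0, X1]) = 0 :=
    coeff_subst_vars_zero (by decide) (by decide) (w := 2) (by omega)
  have hz12 : coeff e (Δ.subst ![X1, X2]) = 0 :=
    coeff_subst_vars_zero (by decide) (by decide) (w := 0) (by omega)
  have q01 := coeff_fadd_sub F (ps_constantCoeff hφ (constantCoeff_fadd G c0 c1))
    (constantCoeff_fadd F p0 p1) p2 p2 (d := e)
    (fun g hg => by rw [h01, map_add, coeff_subst_eq_zero_of_vanish hΔ c0 c1 (hed ▸ hg), add_zero])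
    (fun _ _ => rfl)
  have q12 := coeff_fadd_sub F p0 p0 (ps_constantCoeff hφ (constantCoeff_fadd G c1 c2))
    (constantCoeff_fadd F p1 p2) (d := e) (fun _ _ => rfl)
    (fun g hg => by rw [h12, map_add, coeff_subst_eq_zero_of_vanish hΔ c1 c2 (hed ▸ hg), add_zero])
  rw [h01, map_add, hz01, add_zero, sub_self, sub_self, add_zero, sub_eq_zero, ← h01] at q01
  rw [h12, map_add, hz12, add_zero, sub_self, sub_self, add_zero, sub_eq_zero, ← h12] at q12
  rw [q12, q01, ← fadd_assoc F p0 p1 p2, add_right_inj] at hE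
  have low : ∀ (u v : MvPowerSeries (Fin 3) A), constantCoeff u = 0 → constantCoeff v = 0 →
      ∀ g : Fin 3 →₀ ℕ, g.degree < 2 → coeff g (fadd G u v) = coeff g (u + v) := by
    intro u v hu hv g hg
    have hs := hasSubst_pair hu hv
    have hlin : G.toPowerSeries - (x0 + x1) ∈ lowI A (Fin 2) 1 := fun f hf => by
      rw [map_sub, coeff_formalGroup_low G f (by omega), sub_self]
    have h := subst_mem_lowI hlin hs (fun s => by fin_cases s <;> simpa) g (by omega)
    rw [show MvPowerSeries.subst ![u, v] (G.toPowerSeries - (x0 + x1)) =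
        fadd G u v - (u + v) by
      rw [← coe_substAlgHom hs, map_sub, map_add, substAlgHom_X hs, substAlgHom_X hs,
        coe_substAlgHom hs]
      rfl, map_sub, sub_eq_zero] at h
    exact h
  rw [(coeff_subst_agree hΔ (constantCoeff_fadd G c1 c2) (by simp [c1, c2]) c0 (low X1 X2 c1 c2)
      hed.le).2,
    (coeff_subst_agree hΔ (constantCoeff_fadd G c0 c1) (by simp [c0, c1]) c2 (low X0 X1 c0 c1)
      hed.le).1,
    coeff_subst_left (by decide) (by decide) (by decide),
    coeff_subst_right (by decide) (by decide) (by decide), he0, he1, he2] at hE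
  rw [mul_comm _ (coeff _ _), mul_comm _ (coeff _ _)]
  exact hE.symm

end Vale.Agent.P217.Deform
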