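import Vale.Agent.P217.Deform.Series
import Vale.Agent.P217.ActionUnique.Unique
import Vale.Agent.P217.Formal.Law
import Mathlib.RingTheory.MvPowerSeries.Expand

/-!
# P217: lifting a deformation by one degree
-/

noncomputable section

namespace Vale.Agent.P217.Deform

open MvPowerSeries Finset AU

variable {p : ℕ} [hp : Fact p.Prime] {n : ℕ} {A : Type} [CommRing A] {k : Type} [Field k]
  [CharP k p]

/-- The law with parameters `u`. -/
abbrev Flaw (p n : ℕ) (u : Fin (n - 1) → A) : FormalGroup A := law p (vTuple n u)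

omit [CharP k p] in
theorem Flaw_map {B : Type} [CommRing B] (f : A →+* B) (u : Fin (n - 1) → A) :
    (Flaw p n u).map f = Flaw p n fun i => f (u i) := by
  rw [Flaw, law_map]
  congr 1
  funext i
  rw [map_vTuple]

omit [CharP k p] in
theorem Flaw_map_zero {B : Type} [CommRing B] (f : A →+* B) {u : Fin (n - 1) → A}
    (hu : ∀ i, f (u i) = 0) : (Flaw p n u).map f = honda p n B := by
  rw [Flaw_map, honda, Flaw]
  congr 1
  funext i
  rw [← vTuple_zero]
  congr 1
  funext j
  exact hu j

theorem Flaw_comm (u : Fin (n - 1) → A) : (Flaw p n u).IsComm := (lawTarget p).1 A _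

/-- `φ` and `u` are a deformation up to `E`. -/
structure Good (π : A →+* k) (E : Ideal A) (G : FormalGroup A) (φ : PowerSeries A)
    (u : Fin (n - 1) → A) : Prop where
  const : PowerSeries.constantCoeff φ = 0
  res : PowerSeries.map π φ = PowerSeries.X
  small : ∀ i, π (u i) = 0
  defectE : CIn E (defect (Flaw p n u) G φ)

variable {π : A →+* k} {E : Ideal A} {G : FormalGroup A}

theorem CIn.mul_eq_zero {σ : Type} (hE : E ≤ RingHom.ker π)
    (hz : ∀ x ∈ E, ∀ y ∈ RingHom.ker π, x * y = 0) {a b : MvPowerSeries σ A} (ha : CIn E a)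
    (hb : CIn E b) : a * b = 0 := by
  classical
  ext d
  rw [coeff_mul, map_zero]
  exact Finset.sum_eq_zero fun c _ => hz _ (ha _) _ (hE (hb _))

omit [CharP k p] hp in
theorem fadd_of_cIn {σ : Type} (F : FormalGroup A) (hE : E ≤ RingHom.ker π)
    (hz : ∀ x ∈ E, ∀ y ∈ RingHom.ker π, x * y = 0) {a b : MvPowerSeries σ A}
    (ha0 : constantCoeff a = 0) (hb0 : constantCoeff b = 0) (ha : CIn E a) (hb : CIn E b) :
    fadd F a b = a + b := by
  have hs := hasSubst_pair ha0 hb0
  ext d
  set e₀ : Fin 2 →₀ ℕ := Finsupp.single 0 1 with he₀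
  set e₁ : Fin 2 →₀ ℕ := Finsupp.single 1 1 with he₁
  have hne : e₀ ≠ e₁ := fun h => by simpa [he₀, he₁] using congrArg (fun e : Fin 2 →₀ ℕ => e 0) h
  rw [fadd, coeff_subst hs, finsum_eq_sum_of_support_subset _ (s := {e₀, e₁}) ?_]
  · rw [Finset.sum_pair hne, he₀, he₁, F.lin_coeff_X, F.lin_coeff_Y]
    simp
  · intro g hg
    rw [Finset.mem_coe, Finset.mem_insert, Finset.mem_singleton]
    by_contra hc
    rw [not_or] at hc
    apply hg
    simp only [Finsupp.prod_fintype _ _ (fun i => pow_zero _), Fin.prod_univ_two,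
      Matrix.cons_val_zero, Matrix.cons_val_one, smul_eq_mul]
    rcases (by omega : (g 0 = 0 ∧ g 1 = 0) ∨ (g 0 = 1 ∧ g 1 = 0) ∨ (g 0 = 0 ∧ g 1 = 1) ∨
        2 ≤ g 0 ∨ 2 ≤ g 1 ∨ (1 ≤ g 0 ∧ 1 ≤ g 1)) with
      ⟨x, y⟩ | ⟨x, y⟩ | ⟨x, y⟩ | h | h | ⟨x, y⟩
    · rw [show g = 0 from Finsupp.ext fun i => by fin_cases i <;> simp [x, y]]
      simp [F.zero_constantCoeff, coeff_zero_eq_constantCoeff_apply]
    · exact absurd (Finsupp.ext fun i => by fin_cases i <;> simp [he₀, x, y]) hc.1
    · exact absurd (Finsupp.ext fun i => by fin_cases i <;> simp [he₁, x, y]) hc.2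
    · rw [show g 0 = g 0 - 2 + 2 by omega, pow_add, pow_two, CIn.mul_eq_zero hE hz ha ha]
      simp
    · rw [show g 1 = g 1 - 2 + 2 by omega, pow_add (b), pow_two, CIn.mul_eq_zero hE hz hb hb]
      simp
    · rw [show g 0 = g 0 - 1 + 1 by omega, show g 1 = g 1 - 1 + 1 by omega, pow_succ, pow_succ,
        mul_mul_mul_comm, CIn.mul_eq_zero hE hz ha hb]
      simp

/-- The defect vanishes on the axes. -/
theorem defect_axis (F G : FormalGroup A) {φ : PowerSeries A}
    (hφ : PowerSeries.constantCoeff φ = 0) (m : ℕ) : coeff (pairExp 0 m) (defect F G φ) = 0 := by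
  classical
  set X' : MvPowerSeries Unit A := PowerSeries.X with hX'
  have hX : constantCoeff X' = 0 := PowerSeries.constantCoeff_X
  have h0 : φ.subst (0 : MvPowerSeries Unit A) = 0 :=
    PowerSeries.subst_zero_of_constantCoeff_zero hφ
  have h := subst_fadd_defect F G hφ (a := (0 : MvPowerSeries Unit A)) (b := X') (map_zero _) hX
  rw [zero_fadd' G hX, h0, zero_fadd' F (ps_constantCoeff hφ hX), left_eq_add] at h
  have h2 := congrArg (coeff (Finsupp.single () m)) h
  rw [map_zero, coeff_subst (hasSubst_pair (map_zero _) hX),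
    finsum_eq_single _ (pairExp 0 m)] at h2
  · simpa [pairExp, Finsupp.prod_fintype, Fin.prod_univ_two, hX', PowerSeries.X, coeff_X_pow] using h2
  · intro g hg
    simp only [Finsupp.prod_fintype _ _ (fun i => pow_zero _), Fin.prod_univ_two,
      Matrix.cons_val_zero, Matrix.cons_val_one, smul_eq_mul]
    rcases Nat.eq_zero_or_pos (g 0) with h0' | h0'
    · rw [h0', pow_zero, one_mul]
      change coeff g (defect F G φ) * coeff (Finsupp.single () m) (MvPowerSeries.X () ^ g 1) = 0
      rw [coeff_X_pow, if_neg, mul_zero]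
      intro e
      refine hg (Finsupp.ext fun i => ?_)
      have := congrArg (fun q : Unit →₀ ℕ => q ()) e
      simp at this
      fin_cases i <;> simp [pairExp, h0', this]
    · rw [zero_pow h0'.ne', zero_mul, map_zero, mul_zero]

/-- Clearing the pivot clears the degree. -/
theorem vanish_of_pivot (hE : E ≤ RingHom.ker π) (hz : ∀ x ∈ E, ∀ y ∈ RingHom.ker π, x * y = 0)
    (F : FormalGroup A) (hF : F.IsComm) (hG : G.IsComm) {φ : PowerSeries A}
    (hφ : PowerSeries.constantCoeff φ = 0) (hdE : CIn E (defect F G φ)) {d P : ℕ}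
    (hP : IsPivot p d P) (hlow : ∀ g, g.degree < d → coeff g (defect F G φ) = 0)
    (h0 : coeff (pairExp P (d - P)) (defect F G φ) = 0) :
    ∀ g, g.degree ≤ d → coeff g (defect F G φ) = 0 := by
  intro g hg
  rcases hg.lt_or_eq with hg | hg
  · exact hlow g hg
  rw [← pairExp_self g]
  rw [degree_fin_two] at hg
  rcases Nat.eq_zero_or_pos (g 0) with ha | ha
  · rw [ha]; exact defect_axis F G hφ _
  rcases Nat.eq_zero_or_pos (g 1) with hb | hb
  · rw [hb, defect_symm F G hF hG hφ]; exact defect_axis F G hφ _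
  rw [show g 1 = d - g 0 by omega]
  refine cocycle_eq_zero (p := p) (c := fun a => coeff (pairExp a (d - a)) (defect F G φ)) hP
    (fun a => ?_) (fun a b ha hb hab => ?_) (fun i j k hi _ hk hijk => ?_) h0 ha (by omega)
  · rw [mul_comm]
    exact hz _ (hdE _) _ (by simp [RingHom.mem_ker])
  · rw [show d - a = b by omega, show d - b = a by omega]
    exact defect_symm F G hF hG hφ a b
  · rw [show d - (i + j) = k by omega, show d - i = j + k by omega]
    exact defect_cocycle F G hφ hlow hi hk hijk

/-- `t X ^ m`. -/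
def bump (t : A) (m : ℕ) : PowerSeries A := PowerSeries.C t * PowerSeries.X ^ m

theorem subst_bump {σ : Type} (t : A) (m : ℕ) {a : MvPowerSeries σ A} (ha : constantCoeff a = 0) :
    (bump t m).subst a = MvPowerSeries.C t * a ^ m := by
  have hs := PowerSeries.HasSubst.of_constantCoeff_zero ha
  rw [bump, PowerSeries.subst_mul hs, PowerSeries.subst_pow hs, PowerSeries.subst_X hs,
    PowerSeries.subst_C]

omit [CharP k p] in
theorem cIn_C_mul {σ : Type} {t : A} (ht : t ∈ E) (f : MvPowerSeries σ A) :
    CIn E (MvPowerSeries.C t * f) := fun d => by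
  rw [coeff_C_mul]
  exact E.mul_mem_right _ ht

/-- The effect of `φ ↦ φ +_F t X ^ m` on the defect in degrees at most `d`. -/
theorem defect_bump (hE : E ≤ RingHom.ker π) (hz : ∀ x ∈ E, ∀ y ∈ RingHom.ker π, x * y = 0)
    (F G : FormalGroup A) (hF : F.IsComm) {φ : PowerSeries A}
    (hφ : PowerSeries.constantCoeff φ = 0) {t : A} (ht : t ∈ E) {m d : ℕ} (hm : 1 ≤ m)
    (hlow : ∀ g, g.degree < d → coeff g (defect F G φ) = 0)
    (hC : ∀ g : Fin 2 →₀ ℕ, g.degree < d → t * coeff g (G.toPowerSeries ^ m - x0 ^ m - x1 ^ m) = 0) :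
    ∀ g : Fin 2 →₀ ℕ, g.degree ≤ d →
      coeff g (defect F G (fadd F (φ : MvPowerSeries Unit A) (bump t m))) =
        coeff g (defect F G φ) + t * coeff g (G.toPowerSeries ^ m - x0 ^ m - x1 ^ m) := by
  intro g hg
  set ψ := bump t m with hψ
  have hψ0 : PowerSeries.constantCoeff ψ = 0 := by
    simp [hψ, bump, zero_pow (show m ≠ 0 by omega)]
  have hsub : ∀ {a : MvPowerSeries (Fin 2) A}, constantCoeff a = 0 →
      PowerSeries.subst a (fadd F (φ : MvPowerSeries Unit A) ψ : PowerSeries A) =
        fadd F (φ.subst a) (MvPowerSeries.C t * a ^ m) := fun {a} ha => by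
    rw [← subst_bump t m ha, PowerSeries.subst, psSubst_fadd F hφ hψ0
      (PowerSeries.HasSubst.of_constantCoeff_zero ha).const]
    rfl
  have cG : constantCoeff (φ.subst G.toPowerSeries) = 0 := ps_constantCoeff hφ G.zero_constantCoeff
  have cx : ∀ i : Fin 2, constantCoeff (φ.subst (X i : MvPowerSeries (Fin 2) A)) = 0 := fun i =>
    ps_constantCoeff hφ (constantCoeff_X _)
  have cb : ∀ {a : MvPowerSeries (Fin 2) A}, constantCoeff a = 0 →
      constantCoeff (MvPowerSeries.C t * a ^ m) = 0 := fun {a} ha => by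
    simp [ha, zero_pow (show m ≠ 0 by omega)]
  have c0 : constantCoeff (x0 : MvPowerSeries (Fin 2) A) = 0 := constantCoeff_X _
  have c1 : constantCoeff (x1 : MvPowerSeries (Fin 2) A) = 0 := constantCoeff_X _
  have hmed : fadd F (fadd F (φ.subst (x0 : MvPowerSeries (Fin 2) A)) (MvPowerSeries.C t * x0 ^ m))
      (fadd F (φ.subst (x1 : MvPowerSeries (Fin 2) A)) (MvPowerSeries.C t * x1 ^ m)) =
      fadd F (fadd F (φ.subst (x0 : MvPowerSeries (Fin 2) A)) (φ.subst x1))
        (MvPowerSeries.C t * x0 ^ m + MvPowerSeries.C t * x1 ^ m) := by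
    rw [← fadd_of_cIn F hE hz (cb c0) (cb c1) (cIn_C_mul ht _) (cIn_C_mul ht _),
      fadd_assoc F (cx 0) (cb c0) (constantCoeff_fadd F (cx 1) (cb c1)),
      ← fadd_assoc F (cb c0) (cx 1) (cb c1), fadd_comm F hF (cb c0) (cx 1),
      fadd_assoc F (cx 1) (cb c0) (cb c1),
      ← fadd_assoc F (cx 0) (cx 1) (constantCoeff_fadd F (cb c0) (cb c1))]
  have q := coeff_fadd_sub F cG (constantCoeff_fadd F (cx 0) (cx 1)) (cb G.zero_constantCoeff)
    (b' := MvPowerSeries.C t * x0 ^ m + MvPowerSeries.C t * x1 ^ m)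
    (by rw [map_add, cb c0, cb c1, add_zero]) (d := g)
    (fun f hf => by
      have := hlow f (hf.trans_le hg)
      rwa [defect, map_sub, sub_eq_zero] at this)
    (fun f hf => by
      have := hC f (hf.trans_le hg)
      rw [map_sub, map_sub, mul_sub, mul_sub] at this
      rw [map_add, coeff_C_mul, coeff_C_mul, coeff_C_mul]
      linear_combination this)
  rw [map_add, coeff_C_mul, coeff_C_mul, coeff_C_mul] at q
  rw [defect, hsub G.zero_constantCoeff, hsub c0, hsub c1, hmed, map_sub, q, defect, map_sub,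
    map_sub, map_sub]
  ring

theorem pow_char_sub {h : MvPowerSeries (Fin 2) k} (r : ℕ) :
    h ^ p ^ r - x0 ^ p ^ r - x1 ^ p ^ r = (h - (x0 + x1)) ^ p ^ r := by
  have : CharP (MvPowerSeries (Fin 2) k) p := charP_of_injective_ringHom
    (f := (MvPowerSeries.C : k →+* MvPowerSeries (Fin 2) k))
    (fun a b hab => by simpa using congrArg MvPowerSeries.constantCoeff hab) p
  rw [sub_pow_char_pow, add_pow_char_pow]
  ring

theorem pairExp_smul (c a b : ℕ) : c • pairExp a b = pairExp (c * a) (c * b) := by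
  simp [pairExp, smul_add, Finsupp.smul_single]

/-- The exponent used in degree `d`, its low coefficients and its pivot, over the residue field. -/
theorem residual_data (hn : 1 ≤ n) {d P : ℕ} (hd : 2 ≤ d) (hP : IsPivot p d P)
    (hbig : ∀ j, d = p ^ j → n ≤ j) :
    ∃ m, 1 ≤ m ∧ d ≤ m * p ^ n ∧
      (∀ g : Fin 2 →₀ ℕ, g.degree < d →
        coeff g ((honda p n k).toPowerSeries ^ m - x0 ^ m - x1 ^ m) = 0) ∧
      coeff (pairExp P (d - P)) ((honda p n k).toPowerSeries ^ m - x0 ^ m - x1 ^ m) ≠ 0 := by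
  set h := (honda p n k).toPowerSeries with hh
  have hR := honda_low (p := p) (A := k) lawTarget lowDegreeTarget hn
  rcases hP with ⟨v, rfl, rfl⟩ | ⟨v, q, rfl, hq1, hq, rfl⟩
  · obtain ⟨r, hr⟩ : ∃ r, v + 1 = n + r := ⟨v + 1 - n, by have := hbig (v + 1) rfl; omega⟩
    obtain ⟨n', rfl⟩ : ∃ n', n = n' + 1 := ⟨n - 1, by omega⟩
    obtain rfl : v = n' + r := by omega
    have hd' : p ^ (n' + r + 1) = p ^ r * p ^ (n' + 1) := by rw [← pow_add]; ring_nf
    refine ⟨p ^ r, Nat.one_le_pow _ _ hp.out.pos, hd'.le, fun g hg => ?_, ?_⟩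
    · rw [pow_char_sub]
      refine coeff_of_lt_order (lt_of_lt_of_le ?_ (le_order_pow _))
      have h2 : ((p ^ (n' + 1) : ℕ) : ℕ∞) ≤ (h - (x0 + x1)).order := nat_le_order fun f hf =>
        hR f (by omega)
      calc ((g.degree : ℕ) : ℕ∞) < ((p ^ r * p ^ (n' + 1) : ℕ) : ℕ∞) := by
            exact_mod_cast hd' ▸ hg
        _ ≤ _ := by
            rw [nsmul_eq_mul, Nat.cast_mul]
            exact mul_le_mul' le_rfl h2
    · rw [pow_char_sub]
      have e : pairExp (p ^ (n' + r)) (p ^ (n' + r + 1) - p ^ (n' + r)) =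
          p ^ r • pairExp (p ^ n') (p ^ (n' + 1) - p ^ n') := by
        rw [pairExp_smul, Nat.mul_sub, ← hd', ← pow_add, add_comm r n']
      have : ExpChar k p := ExpChar.prime hp.out
      rw [e, ← map_iterateFrobenius_expand p hp.out.ne_zero, coeff_map, coeff_expand_smul,
        iterateFrobenius_def]
      refine pow_ne_zero _ ?_
      have hlt : p ^ n' < p ^ (n' + 1) := (Nat.pow_lt_pow_iff_right hp.out.one_lt).2 (by omega)
      have hdeg : deg (pairExp (p ^ n') (p ^ (n' + 1) - p ^ n')) ≤ p ^ (n' + 1) := by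
        rw [deg_eq_degree, degree_pairExp]; omega
      have hlow := (lowDegreeTarget p k).1 (vHonda (n' + 1)) (fun _ => 0) (n' + 1) (by omega)
        (fun i _ hi => by simp [vHonda, hi.ne]) _ hdeg
      rw [law_zero lawTarget] at hlow
      rw [map_sub, hh, honda, hlow]
      simp only [vHonda, if_pos, sub_zero, neg_mul, one_mul, neg_ne_zero]
      rw [coeff_apply, cPoly, if_pos ⟨by simp [pairExp]; omega, by simp [pairExp, hp.out.ne_zero],
        by simp [pairExp]; omega⟩]
      simp only [pairExp, Finsupp.add_apply, Finsupp.single_eq_same, ne_eq, Fin.reduceEq,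
        not_false_eq_true, Finsupp.single_eq_of_ne, add_zero]
      intro hc
      rw [CharP.cast_eq_zero_iff k p] at hc
      exact not_dvd_choose_div p n' hc
  · have hPd : p ^ v < p ^ v * q := lt_mul_of_one_lt_right (pow_pos hp.out.pos v) hq1
    refine ⟨p ^ v * q, by omega, Nat.le_mul_of_pos_right _ (pow_pos hp.out.pos n), fun g hg => ?_, ?_⟩
    · rw [map_sub, map_sub, coeff_pow_eq_zero (honda p n k).zero_constantCoeff hg,
        coeff_pow_eq_zero (constantCoeff_X _) hg, coeff_pow_eq_zero (constantCoeff_X _) hg]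
      simp
    · classical
      set D := p ^ v * q
      obtain ⟨D', hD'⟩ : ∃ D', D = D' + 1 := ⟨D - 1, by omega⟩
      have e : coeff (pairExp (p ^ v) (D - p ^ v)) (h ^ D) =
          coeff (pairExp (p ^ v) (D - p ^ v)) ((x0 + x1 : MvPowerSeries (Fin 2) k) ^ D) := by
        rw [← sub_eq_zero, ← map_sub, hD']
        refine coeff_of_lt_order (lt_of_lt_of_le ?_ (le_order_pow_sub_pow
          (honda p n k).zero_constantCoeff (by simp) (D := 2)
          (coeff_formalGroup_low (honda p n k)) D'))
        rw [degree_pairExp]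
        exact Nat.cast_lt.mpr (by omega)
      rw [map_sub, map_sub, e, coeff_add_pow, coeff_X_pow, coeff_X_pow, if_pos (by simp [pairExp]; omega),
        if_neg, if_neg, sub_zero, sub_zero]
      · simp only [pairExp, Finsupp.add_apply, Finsupp.single_eq_same, ne_eq, Fin.reduceEq,
          not_false_eq_true, Finsupp.single_eq_of_ne, add_zero]
        intro hc
        rw [CharP.cast_eq_zero_iff k p] at hc
        refine not_dvd_choose_pow ?_ hc
        rwa [Nat.mul_div_cancel_left _ (pow_pos hp.out.pos v)]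
      · intro hc
        simpa [pairExp, hp.out.ne_zero] using congrArg (fun f : Fin 2 →₀ ℕ => f 0) hc
      · intro hc
        have := congrArg (fun f : Fin 2 →₀ ℕ => f 1) hc
        simp [pairExp] at this
        omega

/-- One more degree. -/
theorem step (hn : 1 ≤ n) (hsurj : Function.Surjective π) (hE : E ≤ RingHom.ker π)
    (hz : ∀ x ∈ E, ∀ y ∈ RingHom.ker π, x * y = 0) (hG : G.IsComm)
    (hGπ : G.map π = honda p n k) {φ : PowerSeries A} {u : Fin (n - 1) → A}
    (hg : Good (p := p) π E G φ u) {d : ℕ} (hd : 2 ≤ d)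
    (hlow : ∀ g, g.degree < d → coeff g (defect (Flaw p n u) G φ) = 0) :
    ∃ φ' u', Good (p := p) π E G φ' u' ∧
      (∀ g, g.degree ≤ d → coeff g (defect (Flaw p n u') G φ') = 0) ∧
      (∀ i, i * p ^ n < d → PowerSeries.coeff i φ' = PowerSeries.coeff i φ) ∧
      (p ^ n < d → u' = u) := by
  obtain ⟨P, hP⟩ : ∃ P, IsPivot p d P := by
    rcases exists_pivot (p := p) hd with ⟨v, h⟩ | ⟨v, q, h, h1, h2⟩
    · exact ⟨_, .inl ⟨v, h, rfl⟩⟩
    · exact ⟨_, .inr ⟨v, q, h, h1, h2, rfl⟩⟩
  by_cases hsmall : ∃ j, d = p ^ j ∧ j < n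
  · -- change a parameter
    obtain ⟨j, rfl, hjn⟩ := hsmall
    have hj : 1 ≤ j := by
      rcases j with _ | j
      · simp at hd
      · omega
    obtain ⟨j', rfl⟩ : ∃ j', j = j' + 1 := ⟨j - 1, by omega⟩
    obtain rfl : P = p ^ j' := by
      rcases hP with ⟨v, h, rfl⟩ | ⟨v, q, h, h1, h2, -⟩
      · have := Nat.pow_right_injective hp.out.two_le h
        simp at this
        rw [this]
      · exfalso
        rcases Nat.lt_or_ge (j' + 1) (v + 1) with h3 | h3
        · have := Nat.pow_le_pow_right hp.out.pos (by omega : j' + 1 ≤ v)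
          have := lt_mul_of_one_lt_right (pow_pos hp.out.pos v) h1
          omega
        · rw [show j' + 1 = v + (j' - v + 1) by omega, pow_add] at h
          exact h2 (Nat.eq_of_mul_eq_mul_left (pow_pos hp.out.pos v) h ▸ dvd_pow_self p (by omega))
    set c0 := coeff (pairExp (p ^ j') (p ^ (j' + 1) - p ^ j')) (defect (Flaw p n u) G φ)
    set cc := coeff (pairExp (p ^ j') (p ^ (j' + 1) - p ^ j')) (cPoly p A (j' + 1))
    have hlt : p ^ j' < p ^ (j' + 1) := (Nat.pow_lt_pow_iff_right hp.out.one_lt).2 (by omega)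
    have hccπ : π cc ≠ 0 := by
      simp only [cc]
      rw [map_cPoly, coeff_apply, cPoly, if_pos ⟨by simp [pairExp]; omega,
        by simp [pairExp, hp.out.ne_zero], by simp [pairExp]; omega⟩]
      simp only [pairExp, Finsupp.add_apply, Finsupp.single_eq_same, ne_eq, Fin.reduceEq,
        not_false_eq_true, Finsupp.single_eq_of_ne, add_zero]
      intro hc
      rw [CharP.cast_eq_zero_iff k p] at hc
      exact not_dvd_choose_div p j' hc
    obtain ⟨s, hs⟩ := hsurj (π cc)⁻¹
    set t := -c0 * s with ht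
    have htE : t ∈ E := E.mul_mem_right _ (E.neg_mem (hg.defectE _))
    set u' := Function.update u ⟨j', by omega⟩ (u ⟨j', by omega⟩ + t) with hu'
    have hu'E : ∀ i, u' i - u i ∈ E := fun i => by
      rw [hu', Function.update_apply]
      split_ifs with hi
      · subst hi; simpa using htE
      · simp
    have hu'π : ∀ i, π (u' i) = 0 := fun i => by
      rw [← sub_add_cancel (u' i) (u i), map_add, hg.small i, add_zero]
      exact hE (hu'E i)
    set D := (Flaw p n u').toPowerSeries - (Flaw p n u).toPowerSeries with hD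
    have hDE : CIn E D := by
      rw [hD, cIn_sub_iff, ← FormalGroup.map_toPowerSeries, ← FormalGroup.map_toPowerSeries,
        Flaw_map, Flaw_map, show (fun i => Ideal.Quotient.mk E (u' i)) =
          fun i => Ideal.Quotient.mk E (u i) from funext fun i => Ideal.Quotient.eq.2 (hu'E i)]
    have cx : ∀ i : Fin 2, constantCoeff (φ.subst (X i : MvPowerSeries (Fin 2) A)) = 0 := fun i =>
      ps_constantCoeff hg.const (constantCoeff_X _)
    have hsx := hasSubst_pair (cx 0) (cx 1)
    have hdiff : defect (Flaw p n u') G φ = defect (Flaw p n u) G φ - D := by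
      have e : D.subst ![φ.subst (x0 : MvPowerSeries (Fin 2) A), φ.subst x1] = D := by
        refine (subst_eq (I := E) (J := RingHom.ker π) hz hDE hsx HasSubst.X fun i d => ?_).trans
          ((congrFun subst_self D).trans rfl)
        rw [RingHom.mem_ker, ← coeff_map, map_sub, map_X]
        fin_cases i <;>
          simp [map_subst_one π φ (constantCoeff_X _), hg.res,
            PowerSeries.subst_X (PowerSeries.HasSubst.X _)]
      have e2 : D.subst ![φ.subst (x0 : MvPowerSeries (Fin 2) A), φ.subst x1] =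
          fadd (Flaw p n u') (φ.subst (x0 : MvPowerSeries (Fin 2) A)) (φ.subst x1) -
            fadd (Flaw p n u) (φ.subst (x0 : MvPowerSeries (Fin 2) A)) (φ.subst x1) := by
        rw [hD, fadd, fadd, ← coe_substAlgHom hsx, map_sub]
      rw [e] at e2
      rw [defect, defect, e2]
      ring
    have hcoef : ∀ g : Fin 2 →₀ ℕ, g.degree ≤ p ^ (j' + 1) →
        coeff g D = -t * coeff g (cPoly p A (j' + 1)) := by
      intro g hgd
      have h := law_sub_lowDegree p A (vTuple n u') (vTuple n u) (j' + 1) (by omega)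
        (fun i h1 h2 => by
          simp only [vTuple, hu', Function.update_apply]
          split_ifs with ha hb
          · simp only [Fin.ext_iff] at hb; omega
          all_goals rfl) g ((deg_eq_degree g).trans_le hgd)
      rw [hD, map_sub]
      refine h.trans ?_
      simp [vTuple, hu', show j' + 1 < n by omega]
    refine ⟨φ, u', ⟨hg.const, hg.res, hu'π, ?_⟩, ?_, fun i _ => rfl, fun h => ?_⟩
    · intro g; rw [hdiff, map_sub]; exact E.sub_mem (hg.defectE g) (hDE g)
    · refine vanish_of_pivot (p := p) hE hz _ (Flaw_comm u') hG hg.const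
        (fun g => by rw [hdiff, map_sub]; exact E.sub_mem (hg.defectE g) (hDE g)) hP
        (fun g hgd => ?_) ?_
      · rw [hdiff, map_sub, hlow g hgd, hcoef g hgd.le, coeff_apply (cPoly p A (j' + 1)), cPoly,
          if_neg]
        · simp
        · rintro ⟨h1, -, -⟩
          rw [degree_fin_two] at hgd
          omega
      · rw [hdiff, map_sub, hcoef _ (by rw [degree_pairExp]; omega)]
        change c0 - -t * cc = 0
        have hk : s * cc - 1 ∈ RingHom.ker π := by
          rw [RingHom.mem_ker, map_sub, map_mul, hs, inv_mul_cancel₀ hccπ, map_one, sub_self]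
        have := hz _ (hg.defectE (pairExp (p ^ j') (p ^ (j' + 1) - p ^ j'))) _ hk
        rw [ht]
        linear_combination -this
    · have := (Nat.pow_lt_pow_iff_right hp.out.one_lt).1 h
      omega
  · -- change the series
    obtain ⟨m, hm, hmd, hlowk, hpiv⟩ := residual_data (k := k) hn hd hP fun j hj => by
      by_contra h; exact hsmall ⟨j, hj, by omega⟩
    set K := G.toPowerSeries ^ m - (x0 : MvPowerSeries (Fin 2) A) ^ m - x1 ^ m with hK
    have hKπ : MvPowerSeries.map π K = (honda p n k).toPowerSeries ^ m - x0 ^ m - x1 ^ m := by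
      rw [hK, map_sub, map_sub, map_pow, map_pow, map_pow, map_X, map_X,
        ← FormalGroup.map_toPowerSeries, hGπ]
    set c0 := coeff (pairExp P (d - P)) (defect (Flaw p n u) G φ)
    set cc := coeff (pairExp P (d - P)) K
    have hccπ : π cc ≠ 0 := by simp only [cc]; rw [← coeff_map, hKπ]; exact hpiv
    obtain ⟨s, hs⟩ := hsurj (π cc)⁻¹
    set t := -c0 * s with ht
    have htE : t ∈ E := E.mul_mem_right _ (E.neg_mem (hg.defectE _))
    set φ' : PowerSeries A := fadd (Flaw p n u) (φ : MvPowerSeries Unit A) (bump t m) with hφ'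
    have hb0 : PowerSeries.constantCoeff (bump t m) = 0 := by
      simp [bump, zero_pow (show m ≠ 0 by omega)]
    have hφ'0 : PowerSeries.constantCoeff φ' = 0 := constantCoeff_fadd _ hg.const hb0
    have hC : ∀ g : Fin 2 →₀ ℕ, g.degree < d → t * coeff g K = 0 := fun g hgd =>
      hz _ htE _ (by rw [RingHom.mem_ker, ← coeff_map, hKπ]; exact hlowk g hgd)
    have hbump := defect_bump hE hz (Flaw p n u) G (Flaw_comm u) hg.const htE hm hlow hC
    have hmap : ∀ {B : Type} [CommRing B] (f : A →+* B), f t = 0 →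
        PowerSeries.map f φ' = PowerSeries.map f φ := by
      intro B _ f hf
      refine (map_fadd f (Flaw p n u) (a := (φ : MvPowerSeries Unit A))
        (b := bump t m) hg.const hb0).trans ?_
      rw [show MvPowerSeries.map f (bump t m : MvPowerSeries Unit A) = 0 by
        change PowerSeries.map f (bump t m) = 0
        simp [bump, hf], fadd_zero']
      · rfl
      · rw [constantCoeff_map]
        change f (PowerSeries.constantCoeff φ) = 0
        rw [hg.const, map_zero]
    have hE' : CIn E (defect (Flaw p n u) G φ') := by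
      intro g
      have h1 : Ideal.Quotient.mk E (coeff g (defect (Flaw p n u) G φ')) =
          Ideal.Quotient.mk E (coeff g (defect (Flaw p n u) G φ)) := by
        rw [← coeff_map, ← coeff_map, map_defect _ _ _ hφ'0, map_defect _ _ _ hg.const,
          hmap _ (Ideal.Quotient.eq_zero_iff_mem.2 htE)]
      rw [← sub_add_cancel (coeff g (defect (Flaw p n u) G φ')) (coeff g (defect (Flaw p n u) G φ))]
      exact E.add_mem (Ideal.Quotient.eq.1 h1) (hg.defectE g)
    refine ⟨φ', u, ⟨hφ'0, (hmap π (hE htE)).trans hg.res, hg.small, hE'⟩, ?_, fun i hi => ?_,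
      fun _ => rfl⟩
    · refine vanish_of_pivot (p := p) hE hz _ (Flaw_comm u) hG hφ'0 hE' hP
        (fun g hgd => by rw [hbump g hgd.le, hlow g hgd, hC g hgd, add_zero]) ?_
      have hPd : P ≤ d := by
        rcases hP with ⟨v, rfl, rfl⟩ | ⟨v, q, rfl, h1, -, rfl⟩
        · exact Nat.pow_le_pow_right hp.out.pos (by omega)
        · exact Nat.le_mul_of_pos_right _ (by omega)
      rw [hbump _ (by rw [degree_pairExp]; omega)]
      change c0 + t * cc = 0
      have hk : s * cc - 1 ∈ RingHom.ker π := by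
        rw [RingHom.mem_ker, map_sub, map_mul, hs, inv_mul_cancel₀ hccπ, map_one, sub_self]
      have := hz _ (hg.defectE (pairExp P (d - P))) _ hk
      rw [ht]
      linear_combination -this
    · have him : i < m := Nat.lt_of_mul_lt_mul_right (hi.trans_le hmd)
      have q := coeff_fadd_sub (Flaw p n u) (σ := Unit) (a := φ) (a' := φ) (b := bump t m) (b' := 0)
        hg.const hg.const hb0 (map_zero _) (d := Finsupp.single () i) (fun _ _ => rfl) (fun f hf => ?_)
      · rw [fadd_zero' _ (show constantCoeff (φ : MvPowerSeries Unit A) = 0 from hg.const), sub_self,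
          map_zero, sub_zero, zero_add] at q
        change PowerSeries.coeff i φ' - PowerSeries.coeff i φ = PowerSeries.coeff i (bump t m) at q
        rwa [bump, PowerSeries.coeff_C_mul, PowerSeries.coeff_X_pow, if_neg him.ne, mul_zero,
          sub_eq_zero] at q
      · rw [map_zero]
        rw [Finsupp.degree_single] at hf
        have e : f = Finsupp.single () (f ()) := Finsupp.ext fun x => by simp
        rw [e]
        change PowerSeries.coeff (f ()) (bump t m) = 0
        rw [bump, PowerSeries.coeff_C_mul, PowerSeries.coeff_X_pow, if_neg, mul_zero]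
        rw [e, Finsupp.degree_single] at hf
        omega

end Vale.Agent.P217.Deform
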